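import Vale.Agent.P058.RM.Step

/-!
# The two sequences

`|α|^n1 = |β|^n2`, `0 < n1 ≤ n2`.  Design P (cycle of length `n1 + n2`): `n1` steps `c = -a` (factor `α`), then
`n2` steps `d = -b` (factor `1/β`).  Design Q (cycle of length `n2`): `n1` steps with `c = -a`, `d = -b`
(factor `α/β`), then `n2 - n1` steps `d = -b` (factor `1/β`).
-/

namespace Vale.Agent.P058.RM

open Vale.Agent.P058 Vale.Agent.P058.RS

noncomputable section

def vP (α β : ℝ) (n1 i : ℕ) : ℝ := if i ≤ n1 then |α| ^ i else |α| ^ n1 / |β| ^ (i - n1)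

def vQ (α β : ℝ) (n1 i : ℕ) : ℝ := if i ≤ n1 then |α / β| ^ i else |α / β| ^ n1 / |β| ^ (i - n1)

/-- [V1] cases `i < n1` (`pow_succ`), `n1 ≤ i`, `i + 1 < n1 + n2` (`i + 1 - n1 = (i - n1) + 1`, `pow_succ`,
`div_div`; for `i = n1` note `vP n1 = |α|^n1 = |α|^n1 / |β|^0`), `i + 1 = n1 + n2` (`Nat.mod_self`, `vP 0 = 1`,
`|α|^n1 / |β|^(n2-1) / |β| = |α|^n1 / |β|^n2 = 1`). -/
lemma vP_step (α β : ℝ) (hβ : β ≠ 0) (n1 n2 : ℕ) (h2 : 0 < n2) (hcl : |α| ^ n1 = |β| ^ n2) {i : ℕ}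
    (hi : i < n1 + n2) :
    vP α β n1 i * (if i < n1 then |α| else 1) / (if n1 ≤ i then |β| else 1) =
      vP α β n1 ((i + 1) % (n1 + n2)) := by
  have hB : |β| ≠ 0 := abs_ne_zero.mpr hβ
  have hv : ∀ j, n1 ≤ j → vP α β n1 j = |α| ^ n1 / |β| ^ (j - n1) := by
    intro j hj
    unfold vP
    split_ifs with h
    · have : j = n1 := le_antisymm h hj
      subst this
      simp
    · rfl
  have hw : ∀ j, j ≤ n1 → vP α β n1 j = |α| ^ j := by
    intro j hj
    unfold vP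
    rw [if_pos hj]
  rcases lt_or_ge i n1 with h | h
  · rw [if_pos h, if_neg (not_le.mpr h), Nat.mod_eq_of_lt (by omega), hw i h.le, hw (i + 1) h,
      pow_succ, div_one]
  · rw [if_neg (not_lt.mpr h), if_pos h, hv i h, mul_one, div_div, ← pow_succ]
    rcases lt_or_ge (i + 1) (n1 + n2) with h3 | h3
    · rw [Nat.mod_eq_of_lt h3, hv (i + 1) (by omega)]
      congr 2
      omega
    · have e : i + 1 = n1 + n2 := by omega
      rw [e, Nat.mod_self, hw 0 (Nat.zero_le _), pow_zero]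
      have e2 : i - n1 + 1 = n2 := by omega
      rw [e2, hcl]
      exact div_self (pow_ne_zero _ hB)

/-- [V2] same; closure `|α/β|^n1 / |β|^(n2-n1) = |α|^n1 / |β|^n2 = 1` (`abs_div`, `div_pow`, `pow_add` / `pow_sub₀`). -/
lemma vQ_step (α β : ℝ) (hβ : β ≠ 0) (n1 n2 : ℕ) (h1 : 0 < n1) (h12 : n1 ≤ n2)
    (hcl : |α| ^ n1 = |β| ^ n2) {i : ℕ} (hi : i < n2) :
    vQ α β n1 i * (if i < n1 then |α| else 1) / |β| = vQ α β n1 ((i + 1) % n2) := by
  have hB : |β| ≠ 0 := abs_ne_zero.mpr hβ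
  have hv : ∀ j, n1 ≤ j → vQ α β n1 j = |α / β| ^ n1 / |β| ^ (j - n1) := by
    intro j hj
    unfold vQ
    split_ifs with h
    · have : j = n1 := le_antisymm h hj
      subst this
      simp
    · rfl
  have hw : ∀ j, j ≤ n1 → vQ α β n1 j = |α / β| ^ j := by
    intro j hj
    unfold vQ
    rw [if_pos hj]
  rcases lt_or_ge (i + 1) n2 with h3 | h3
  · rw [Nat.mod_eq_of_lt h3]
    rcases lt_or_ge i n1 with h | h
    · rw [if_pos h, hw i h.le, hw (i + 1) h, pow_succ, abs_div, mul_div_assoc]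
    · rw [if_neg (not_lt.mpr h), hv i h, mul_one, div_div, ← pow_succ, hv (i + 1) (by omega)]
      congr 2
      omega
  · have e : i + 1 = n2 := by omega
    rw [e, Nat.mod_self, hw 0 (Nat.zero_le _), pow_zero]
    have key : |α / β| ^ n1 / |β| ^ (n2 - n1) = 1 := by
      rw [abs_div, div_pow, div_div, ← pow_add, hcl]
      have : n1 + (n2 - n1) = n2 := by omega
      rw [this]
      exact div_self (pow_ne_zero _ hB)
    rcases lt_or_ge i n1 with h | h
    · have e1 : n1 = n2 := by omega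
      have e0 : n1 = i + 1 := by omega
      rw [if_pos h, hw i h.le, mul_div_assoc, ← abs_div, ← pow_succ, ← e0]
      rw [← e1] at key
      simpa using key
    · rw [if_neg (not_lt.mpr h), hv i h, mul_one, div_div, ← pow_succ]
      have e2 : i - n1 + 1 = n2 - n1 := by omega
      rw [e2]
      exact key

/-- [V0] `ZMod.val_add`, `ZMod.val_one_eq_one_mod`, `Nat.add_mod_mod`. -/
lemma val_add_one' (n : ℕ) [NeZero n] (i : ZMod n) : (i + 1).val = (i.val + 1) % n := by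
  rw [ZMod.val_add, ZMod.val_one_eq_one_mod, Nat.add_mod_mod]

variable (n1 n2 : ℕ)

abbrev OmM (n1 n2 : ℕ) := Bool × (ZMod (n1 + n2) × ZMod n2)

def vM (α β l1 l0 : ℝ) (ω : OmM n1 n2) : ℝ :=
  if ω.1 then l1 * vP α β n1 ω.2.1.val else l0 * vQ α β n1 ω.2.2.val

def fAM (ω : OmM n1 n2) : Bool :=
  if ω.1 then decide (ω.2.1.val < n1) else decide (ω.2.2.val < n1)

def fBM (ω : OmM n1 n2) : Bool :=
  if ω.1 then decide (n1 ≤ ω.2.1.val) else true

/-- [V3] cases on `ω.1`; `abs_mul`, `abs_div`; `vP`, `vQ` are nonnegative; `vP_step`, `vQ_step`,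
`val_add_one'`, `ZMod.val_lt`. -/
lemma vM_step [NeZero n2] (α β l1 l0 : ℝ) (hβ : β ≠ 0) (h1 : 0 < n1) (h12 : n1 ≤ n2)
    (hcl : |α| ^ n1 = |β| ^ n2) (ω : OmM n1 n2) :
    |sb (vM n1 n2 α β l1 l0) (fAM n1 n2) (fBM n1 n2) α β ω| =
      |vM n1 n2 α β l1 l0 (transl (fun _ => ((1 : ZMod (n1 + n2)), (1 : ZMod n2))) ω)| := by
  have : NeZero (n1 + n2) := ⟨by have := NeZero.ne n2; omega⟩
  have h2 : 0 < n2 := Nat.pos_of_ne_zero (NeZero.ne n2)
  have hP : ∀ i, 0 ≤ vP α β n1 i := by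
    intro i
    unfold vP
    split_ifs <;> positivity
  have hQ : ∀ i, 0 ≤ vQ α β n1 i := by
    intro i
    unfold vQ
    split_ifs <;> positivity
  obtain ⟨b, s1, s2⟩ := ω
  cases b
  · have hs := vQ_step α β hβ n1 n2 h1 h12 hcl (ZMod.val_lt s2)
    have e1 : |sb (vM n1 n2 α β l1 l0) (fAM n1 n2) (fBM n1 n2) α β (false, s1, s2)| =
        |l0| * (vQ α β n1 s2.val * (if s2.val < n1 then |α| else 1) / |β|) := by
      simp only [sb, vM, fAM, fBM, Bool.false_eq_true, if_false, if_true, decide_eq_true_eq]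
      rw [abs_div, abs_mul, abs_mul, abs_of_nonneg (hQ _)]
      split_ifs <;> (try simp only [abs_one]) <;> ring
    have e2 : |vM n1 n2 α β l1 l0 (transl (fun _ => ((1 : ZMod (n1 + n2)), (1 : ZMod n2))) (false, s1, s2))| =
        |l0| * vQ α β n1 ((s2.val + 1) % n2) := by
      simp only [vM, transl, Equiv.coe_fn_mk, Bool.false_eq_true, if_false, Prod.snd_add, Prod.fst_add]
      rw [abs_mul, abs_of_nonneg (hQ _), val_add_one']
    rw [e1, e2, hs]
  · have hs := vP_step α β hβ n1 n2 h2 hcl (ZMod.val_lt s1)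
    have e1 : |sb (vM n1 n2 α β l1 l0) (fAM n1 n2) (fBM n1 n2) α β (true, s1, s2)| =
        |l1| * (vP α β n1 s1.val * (if s1.val < n1 then |α| else 1) / (if n1 ≤ s1.val then |β| else 1)) := by
      simp only [sb, vM, fAM, fBM, if_true, decide_eq_true_eq]
      rw [abs_div, abs_mul, abs_mul, abs_of_nonneg (hP _)]
      split_ifs <;> (try simp only [abs_one]) <;> ring
    have e2 : |vM n1 n2 α β l1 l0 (transl (fun _ => ((1 : ZMod (n1 + n2)), (1 : ZMod n2))) (true, s1, s2))| =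
        |l1| * vP α β n1 ((s1.val + 1) % (n1 + n2)) := by
      simp only [vM, transl, Equiv.coe_fn_mk, if_true, Prod.snd_add, Prod.fst_add]
      rw [abs_mul, abs_of_nonneg (hP _), val_add_one']
    rw [e1, e2, hs]

def PP [NeZero n2] (α β : ℝ) : ℝ :=
  ∑ s : ZMod (n1 + n2) × ZMod n2, if s.1.val < n1 then 4 * vP α β n1 s.1.val ^ 2 else 0

def PQ [NeZero n2] (α β : ℝ) : ℝ :=
  ∑ s : ZMod (n1 + n2) × ZMod n2, if s.2.val < n1 then 4 * vQ α β n1 s.2.val ^ 2 else 0

/-- [V4] all terms are nonnegative and the term `s = (0, 0)` is `4` (`Finset.sum_pos'` or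
`Finset.single_le_sum`). -/
lemma PP_pos [NeZero n2] (α β : ℝ) (h1 : 0 < n1) : 0 < PP n1 n2 α β := by
  unfold PP
  refine Finset.sum_pos' (fun s _ => ?_) ⟨(0, 0), Finset.mem_univ _, ?_⟩
  · split_ifs
    · positivity
    · exact le_rfl
  · simp [ZMod.val_zero, h1, vP]

/-- [V5] -/
lemma PQ_pos [NeZero n2] (α β : ℝ) (h1 : 0 < n1) : 0 < PQ n1 n2 α β := by
  have : NeZero (n1 + n2) := ⟨by have := NeZero.ne n2; omega⟩
  unfold PQ
  refine Finset.sum_pos' (fun s _ => ?_) ⟨(0, 0), Finset.mem_univ _, ?_⟩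
  · split_ifs
    · positivity
    · exact le_refl _
  · simp only [ZMod.val_zero, h1, if_true]
    unfold vQ
    simp

/-- [V6] `step_sq`, `Fintype.sum_prod_type`, `Fintype.sum_bool`, `Finset.mul_sum`. -/
lemma sum_sq_M [NeZero n2] (α β l1 l0 : ℝ) :
    ∑ ω : OmM n1 n2, (sc (vM n1 n2 α β l1 l0) (fAM n1 n2) ω - vM n1 n2 α β l1 l0 ω) ^ 2 =
      l1 ^ 2 * PP n1 n2 α β + l0 ^ 2 * PQ n1 n2 α β := by
  simp only [step_sq]
  rw [Fintype.sum_prod_type, Fintype.sum_bool]
  unfold PP PQ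
  rw [Finset.mul_sum, Finset.mul_sum]
  congr 1
  · refine Finset.sum_congr rfl fun s _ => ?_
    by_cases h : s.1.val < n1
    · simp only [fAM, vM, if_true, h, decide_true]
      ring
    · simp only [fAM, vM, if_true, h, decide_false, Bool.false_eq_true, if_false, mul_zero]
  · refine Finset.sum_congr rfl fun s _ => ?_
    by_cases h : s.2.val < n1
    · simp only [fAM, vM, Bool.false_eq_true, if_false, if_true, h, decide_true]
      ring
    · simp only [fAM, vM, h, decide_false, Bool.false_eq_true, if_false, mul_zero]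

/-- [V7] `step_pr`; in the part `ω.1 = true` never `fAM && fBM`; in the other part `fBM = true`. -/
lemma sum_pr_M [NeZero n2] (α β l1 l0 : ℝ) :
    ∑ ω : OmM n1 n2, (sc (vM n1 n2 α β l1 l0) (fAM n1 n2) ω - vM n1 n2 α β l1 l0 ω) *
        (sd (vM n1 n2 α β l1 l0) (fAM n1 n2) (fBM n1 n2) α β ω -
          sb (vM n1 n2 α β l1 l0) (fAM n1 n2) (fBM n1 n2) α β ω) =
      α / β * (l0 ^ 2 * PQ n1 n2 α β) := by
  simp only [step_pr]
  rw [Fintype.sum_prod_type, Fintype.sum_bool]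
  have h1 : ∑ s : ZMod (n1 + n2) × ZMod n2,
      (if (fAM n1 n2 (true, s) && fBM n1 n2 (true, s)) = true then
        α / β * (4 * vM n1 n2 α β l1 l0 (true, s) ^ 2) else 0) = 0 := by
    refine Finset.sum_eq_zero fun s _ => ?_
    have : (fAM n1 n2 (true, s) && fBM n1 n2 (true, s)) = false := by
      by_cases h : s.1.val < n1
      · have h' : ¬ n1 ≤ s.1.val := by omega
        simp [fAM, fBM, h']
      · simp [fAM, h]
    rw [this]
    simp
  rw [h1, zero_add]
  unfold PQ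
  rw [Finset.mul_sum, Finset.mul_sum]
  refine Finset.sum_congr rfl fun s _ => ?_
  by_cases h : s.2.val < n1
  · simp only [fAM, fBM, vM, Bool.false_eq_true, if_false, if_true, h, decide_true, Bool.and_self]
    ring
  · simp only [fAM, fBM, vM, h, decide_false, Bool.false_eq_true, if_false, mul_zero,
      Bool.false_and]

end

end Vale.Agent.P058.RM
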