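import Vale.Agent.P058.RS.Levels

/-!
# Step designs (signs and one cyclic shift)

`α = 1 - 2 p`, `β = 1 - 2 q`.  On every coordinate `c = ± a` and `d = ± b`:
`(1-p) a + p c` is `a` or `α a`, `(1-q) b + q d` is `b` or `β b`.  So `b = a * (α or 1) / (β or 1)`, and `b` is, up
to signs, the shift of `a` if the absolute values of `a` are multiplied by these factors along the shift.
-/

namespace Vale.Agent.P058.RM

open Vale.Agent.P058 Vale.Agent.P058.RS

noncomputable section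

variable {Ω : Type}

def sc (v : Ω → ℝ) (fA : Ω → Bool) (ω : Ω) : ℝ := if fA ω then - v ω else v ω

def sb (v : Ω → ℝ) (fA fB : Ω → Bool) (α β : ℝ) (ω : Ω) : ℝ :=
  v ω * (if fA ω then α else 1) / (if fB ω then β else 1)

def sd (v : Ω → ℝ) (fA fB : Ω → Bool) (α β : ℝ) (ω : Ω) : ℝ :=
  if fB ω then - sb v fA fB α β ω else sb v fA fB α β ω

/-- [T4] cases on `fA ω`, `fB ω`; `field_simp`, `ring`. -/
lemma step_rel (v : Ω → ℝ) (fA fB : Ω → Bool) (p q : ℝ) (hq : 1 - 2 * q ≠ 0) (ω : Ω) :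
    (1 - p) * v ω + p * sc v fA ω =
      (1 - q) * sb v fA fB (1 - 2 * p) (1 - 2 * q) ω + q * sd v fA fB (1 - 2 * p) (1 - 2 * q) ω := by
  unfold sd sb sc
  cases hA : fA ω <;> cases hB : fB ω
  · simp only [Bool.false_eq_true, if_false, mul_one, div_one]
    ring
  · simp only [Bool.false_eq_true, if_false, if_true, mul_one]
    have e : (1 - q) * (v ω / (1 - 2 * q)) + q * -(v ω / (1 - 2 * q))
        = v ω * ((1 - 2 * q) / (1 - 2 * q)) := by ring
    rw [e, div_self hq]; ring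
  · simp only [Bool.false_eq_true, if_false, if_true, div_one]
    ring
  · simp only [if_true]
    have e : (1 - q) * (v ω * (1 - 2 * p) / (1 - 2 * q)) + q * -(v ω * (1 - 2 * p) / (1 - 2 * q))
        = v ω * (1 - 2 * p) * ((1 - 2 * q) / (1 - 2 * q)) := by ring
    rw [e, div_self hq]; ring

/-- [T5] -/
lemma step_sq (v : Ω → ℝ) (fA : Ω → Bool) (ω : Ω) :
    (sc v fA ω - v ω) ^ 2 = if fA ω then 4 * v ω ^ 2 else 0 := by
  unfold sc
  cases hA : fA ω
  · simp
  · simp only [if_true]; ring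

/-- [T6] -/
lemma step_pr (v : Ω → ℝ) (fA fB : Ω → Bool) (α β : ℝ) (ω : Ω) :
    (sc v fA ω - v ω) * (sd v fA fB α β ω - sb v fA fB α β ω) =
      if fA ω && fB ω then α / β * (4 * v ω ^ 2) else 0 := by
  unfold sd sb sc
  cases fA ω <;> cases fB ω <;> simp <;> ring

variable {Lam S : Type}

/-- [T1] `reachP_of_abs ReachP.base`. -/
lemma reach_sc (Γ : Set (Equiv.Perm (Lam × S))) (v : Lam × S → ℝ) (fA : Lam × S → Bool) :
    ReachP Γ v (sc v fA) := by
  refine reachP_of_abs ReachP.base (fun ω => ?_)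
  unfold sc
  by_cases h : fA ω
  · right
    rw [if_pos h]
  · left
    rw [if_neg h]

/-- [T2] `reachP_of_abs (ReachP.perm τ hτ ReachP.base)`, `abs_eq_abs`. -/
lemma reach_sb (Γ : Set (Equiv.Perm (Lam × S))) (τ : Equiv.Perm (Lam × S)) (hτ : τ ∈ Γ)
    (v : Lam × S → ℝ) (fA fB : Lam × S → Bool) (α β : ℝ)
    (hstep : ∀ ω, |sb v fA fB α β ω| = |v (τ ω)|) : ReachP Γ v (sb v fA fB α β) := by
  refine reachP_of_abs (ReachP.perm τ hτ ReachP.base) (fun ω => ?_)
  exact abs_eq_abs.mp (hstep ω)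

/-- [T3] `reachP_of_abs (reach_sb ..)`. -/
lemma reach_sd (Γ : Set (Equiv.Perm (Lam × S))) (τ : Equiv.Perm (Lam × S)) (hτ : τ ∈ Γ)
    (v : Lam × S → ℝ) (fA fB : Lam × S → Bool) (α β : ℝ)
    (hstep : ∀ ω, |sb v fA fB α β ω| = |v (τ ω)|) : ReachP Γ v (sd v fA fB α β) := by
  refine reachP_of_abs (reach_sb Γ τ hτ v fA fB α β hstep) (fun ω => ?_)
  unfold sd
  split_ifs
  · right; rfl
  · left; rfl

/-- the group: signs and translations -/
theorem ach_transl [Fintype Lam] [Fintype S] [AddCommGroup S] (a : Lam × S → ℝ) :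
    Ach (KK a) (GenRel (∅ ∪ Set.range fun v : Lam → S => transl v)) :=
  ach_genRel_step a _ _ (fun _ _ ω => comm_transl _ _ ω) (fun _ => Nrm.empty _) (ach_genRel_empty a)

end

end Vale.Agent.P058.RM
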